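import Mathlib

/-! A universal bound for the Gaussian propeller functional, and the case of small cells. -/

namespace Vale.Agent.Results.P226.Universal

open MeasureTheory ProbabilityTheory Set Real

theorem m1 : ∫ x in Ioi (0 : ℝ), x * exp (-(1 / 2) * x ^ 2) = 1 := by
  have := integral_rpow_mul_exp_neg_mul_rpow (p := 2) (q := 1) (b := 1 / 2) two_pos
    (by norm_num) (by norm_num)
  simp only [rpow_one, rpow_two] at this
  rw [this]
  norm_num [rpow_neg_one]

theorem m3 : ∫ x in Ioi (0 : ℝ), x ^ 3 * exp (-(1 / 2) * x ^ 2) = 2 := by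
  have := integral_rpow_mul_exp_neg_mul_rpow (p := 2) (q := 3) (b := 1 / 2) two_pos
    (by norm_num) (by norm_num)
  simp only [rpow_ofNat] at this
  rw [this, show (-(3 + 1) / 2 : ℝ) = -(2 : ℕ) by norm_num, rpow_neg (by norm_num), rpow_natCast,
    show ((3 + 1) / 2 : ℝ) = 2 by norm_num, Real.Gamma_two]
  norm_num

theorem i0 : IntegrableOn (fun x : ℝ => exp (-(1 / 2) * x ^ 2)) (Ioi 0) :=
  (integrable_exp_neg_mul_sq (by norm_num)).integrableOn

theorem i1 : IntegrableOn (fun x : ℝ => x * exp (-(1 / 2) * x ^ 2)) (Ioi 0) :=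
  (integrable_mul_exp_neg_mul_sq (by norm_num)).integrableOn

theorem i3 : IntegrableOn (fun x : ℝ => x ^ 3 * exp (-(1 / 2) * x ^ 2)) (Ioi 0) := by
  have := integrableOn_rpow_mul_exp_neg_mul_sq (b := 1 / 2) (s := 3) (by norm_num) (by norm_num)
  simpa only [rpow_ofNat] using this

theorem psi_le {s : ℝ} (hs : 0 ≤ s) {G : ℝ → ℝ} (hG : IntegrableOn G (Ioi 0))
    (h : ∀ x, 0 < x → max (x - s) 0 * exp (-(1 / 2) * x ^ 2) ≤ G x) :
    ∫ x, max (x - s) 0 ∂(gaussianReal 0 1) ≤ (√(2 * π))⁻¹ * ∫ x in Ioi (0 : ℝ), G x := by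
  rw [integral_gaussianReal_eq_integral_smul one_ne_zero,
    ← setIntegral_eq_integral_of_forall_compl_eq_zero (s := Ioi 0) fun x hx => by
      rw [max_eq_right (by simp at hx; linarith), smul_zero], ← integral_const_mul]
  refine integral_mono_of_nonneg (ae_of_all _ fun x => ?_) (hG.const_mul _)
    ((ae_restrict_iff' measurableSet_Ioi).2 (ae_of_all _ fun x hx => ?_))
  · exact smul_nonneg (gaussianPDFReal_nonneg _ _ _) (le_max_right _ _)
  · have e : gaussianPDFReal 0 1 x = (√(2 * π))⁻¹ * exp (-(1 / 2) * x ^ 2) := by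
      simp only [gaussianPDFReal, NNReal.coe_one, mul_one, sub_zero]
      congr 2
      ring
    simp only [e, smul_eq_mul, mul_assoc]
    refine mul_le_mul_of_nonneg_left ?_ (by positivity)
    rw [mul_comm]
    exact h x hx

theorem b2 {s : ℝ} (hs : 0 < s) :
    ∫ x, max (x - s) 0 ∂(gaussianReal 0 1) ≤ (√(2 * π))⁻¹ * (8 / (27 * s ^ 2)) := by
  refine (psi_le hs.le (G := fun x => 4 / (27 * s ^ 2) * (x ^ 3 * exp (-(1 / 2) * x ^ 2)))
    (i3.const_mul _) fun x hx => ?_).trans (le_of_eq ?_)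
  · rw [← mul_assoc]
    refine mul_le_mul_of_nonneg_right (max_le ?_ (by positivity)) (exp_pos _).le
    rw [div_mul_eq_mul_div, le_div_iff₀ (by positivity)]
    nlinarith [mul_nonneg (sq_nonneg (2 * x - 3 * s)) (show 0 ≤ x + 3 * s by positivity)]
  · rw [integral_const_mul, m3]
    ring

theorem b0 : ∫ x, max (x - 0) 0 ∂(gaussianReal 0 1) ≤ (√(2 * π))⁻¹ := by
  refine (psi_le le_rfl i1 fun x hx => ?_).trans (by rw [m1, mul_one])
  rw [sub_zero, max_eq_left hx.le]

theorem ex_le {y : ℝ} (hy : 0 ≤ y) : exp (-y) ≤ 1 - y + y ^ 2 / 2 := by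
  have h := quadratic_le_exp_of_nonneg hy
  have p : 0 < 1 - y + y ^ 2 / 2 := by nlinarith [sq_nonneg (y - 1)]
  rw [exp_neg, inv_le_iff_one_le_mul₀ (exp_pos y)]
  nlinarith [mul_le_mul_of_nonneg_left h p.le, sq_nonneg (y ^ 2)]

theorem b1 {s : ℝ} (hs : 0 < s) : ∫ x, max (x - s) 0 ∂(gaussianReal 0 1) ≤
    (√(2 * π))⁻¹ * (1 + s ^ 2 / 2 - s ^ 4 / 24 + s ^ 6 / 240) - s / 2 := by
  have j : IntegrableOn ((Ioc 0 s).indicator fun x : ℝ => (s - x) * (1 - x ^ 2 / 2 + x ^ 4 / 8))
      (Ioi 0) := ((integrable_indicator_iff measurableSet_Ioc).2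
      (Continuous.integrableOn_Ioc (by fun_prop))).integrableOn
  have j2 : IntegrableOn (fun x : ℝ => x * exp (-(1 / 2) * x ^ 2) - s * exp (-(1 / 2) * x ^ 2))
      (Ioi 0) := i1.sub (i0.const_mul s)
  have j3 : ∫ x in (0 : ℝ)..s, (s - x) * (1 - x ^ 2 / 2 + x ^ 4 / 8) =
      s ^ 2 / 2 - s ^ 4 / 24 + s ^ 6 / 240 := by
    rw [intervalIntegral.integral_eq_sub_of_hasDerivAt (f := fun x => s * x - x ^ 2 / 2 -
      s * x ^ 3 / 6 + x ^ 4 / 8 + s * x ^ 5 / 40 - x ^ 6 / 48) (fun x _ => ?_)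
      (Continuous.intervalIntegrable (by fun_prop) _ _)]
    · ring
    · have := ((((((hasDerivAt_id' x).const_mul s).sub ((hasDerivAt_pow 2 x).div_const 2)).sub
        (((hasDerivAt_pow 3 x).const_mul s).div_const 6)).add
        ((hasDerivAt_pow 4 x).div_const 8)).add
        (((hasDerivAt_pow 5 x).const_mul s).div_const 40)).sub ((hasDerivAt_pow 6 x).div_const 48)
      refine this.congr_deriv ?_
      push_cast
      ring
  refine (psi_le hs.le (G := fun x => x * exp (-(1 / 2) * x ^ 2) - s * exp (-(1 / 2) * x ^ 2) +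
    (Ioc 0 s).indicator (fun x : ℝ => (s - x) * (1 - x ^ 2 / 2 + x ^ 4 / 8)) x) (j2.add j)
    fun x hx => ?_).trans (le_of_eq ?_)
  · have e1 : exp (-(1 / 2) * x ^ 2) ≤ 1 - x ^ 2 / 2 + x ^ 4 / 8 := by
      have := ex_le (show 0 ≤ x ^ 2 / 2 by positivity)
      rw [show -(1 / 2) * x ^ 2 = -(x ^ 2 / 2) by ring]
      linarith
    by_cases h : x ≤ s
    · rw [max_eq_right (by linarith), indicator_of_mem (show x ∈ Ioc 0 s from ⟨hx, h⟩)]
      nlinarith [mul_nonneg (sub_nonneg.2 h) (sub_nonneg.2 e1)]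
    · rw [max_eq_left (by linarith), indicator_of_notMem (fun k => h k.2)]
      linarith
  · rw [integral_add j2 j, integral_sub i1 (i0.const_mul s), m1,
      integral_const_mul, integral_gaussian_Ioi, setIntegral_indicator measurableSet_Ioc,
      inter_eq_right.2 Ioc_subset_Ioi_self, ← intervalIntegral.integral_of_le hs.le, j3,
      show π / (1 / 2) = 2 * π by ring]
    have : (0 : ℝ) < √(2 * π) := by positivity
    generalize √(2 * π) = w at this
    field_simp
    ring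

theorem c_le : (√(2 * π))⁻¹ ≤ 0.39895 := by
  rw [inv_le_comm₀ (by positivity) (by norm_num)]
  exact Real.le_sqrt_of_sq_le (by nlinarith [Real.pi_gt_d6])

theorem b1' {s : ℝ} (hs : 0 < s) (h : s ≤ 1.17) : ∫ x, max (x - s) 0 ∂(gaussianReal 0 1) ≤
    0.39895 * (1 + s ^ 2 / 2 - s ^ 4 / 24 + s ^ 6 / 240) - s / 2 := by
  have s2 : s ^ 2 ≤ 1.3689 := by nlinarith
  have k := mul_le_mul_of_nonneg_right c_le
    (show 0 ≤ 1 + s ^ 2 / 2 - s ^ 4 / 24 + s ^ 6 / 240 by
      nlinarith [mul_le_mul_of_nonneg_left s2 (sq_nonneg s), pow_pos hs 6])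
  exact (b1 hs).trans (sub_le_sub_right k _)

theorem b2' {s : ℝ} (hs : 0 < s) :
    ∫ x, max (x - s) 0 ∂(gaussianReal 0 1) ≤ 0.39895 * (8 / (27 * s ^ 2)) :=
  (b2 hs).trans (mul_le_mul_of_nonneg_right c_le (by positivity))

theorem b3 {s : ℝ} (hs : 0 < s) : ∫ x, max (x - s) 0 ∂(gaussianReal 0 1) ≤ 0.1015 / s := by
  rw [le_div_iff₀ hs]
  rcases le_total s 1.17 with h | h
  · have s2 : s ^ 2 ≤ 1.3689 := by nlinarith
    refine (mul_le_mul_of_nonneg_right (b1' hs h) hs.le).trans ?_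
    have k1 := mul_le_mul_of_nonneg_left s2 (pow_pos hs 5).le
    have k2 : 0 ≤ 0.2679717 - 0.1832239 * s - 0.05 := by linarith
    nlinarith [mul_nonneg (sq_nonneg (s - 0.615)) k2, sq_nonneg (s - 0.615),
      mul_nonneg (sq_nonneg (s - 0.615)) (sq_nonneg s),
      mul_nonneg (sq_nonneg (s - 0.615)) (pow_pos hs 3).le]
  · refine (mul_le_mul_of_nonneg_right (b2' hs) hs.le).trans ?_
    rw [show 0.39895 * (8 / (27 * s ^ 2)) * s = 0.39895 * 8 / (27 * s) by field_simp,
      div_le_iff₀ (by positivity)]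
    linarith

theorem cell {E : Type*} [NormedAddCommGroup E] [InnerProductSpace ℝ E] [FiniteDimensional ℝ E]
    [MeasurableSpace E] [BorelSpace E] (A : Set E) (s : ℝ) (hs : 0 ≤ s) :
    ‖∫ x in A, x ∂(stdGaussian E)‖ ≤
      s * (stdGaussian E).real A + ∫ x, max (x - s) 0 ∂(gaussianReal 0 1) := by
  set z := ∫ x in A, x ∂(stdGaussian E) with hz
  have p0 : 0 ≤ ∫ x, max (x - s) 0 ∂(gaussianReal 0 1) :=
    integral_nonneg fun x => le_max_right _ _
  rcases eq_or_ne z 0 with h | h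
  · rw [h, norm_zero]; positivity
  have n0 : 0 < ‖z‖ := norm_pos_iff.2 h
  set L : StrongDual ℝ E := innerSL ℝ (‖z‖⁻¹ • z) with hL
  have L1 : ‖L‖ = 1 := by rw [hL, innerSL_apply_norm, norm_smul, norm_inv, norm_norm,
    inv_mul_cancel₀ n0.ne']
  have mp : (stdGaussian E).map L = gaussianReal 0 1 := by
    rw [IsGaussian.map_eq_gaussianReal, integral_strongDual_stdGaussian, variance_dual_stdGaussian,
      L1]
    simp
  have ii : Integrable (fun x : E => x) (stdGaussian E) := IsGaussian.integrable_id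
  have iL : Integrable (fun x => L x) (stdGaussian E) := L.integrable_comp ii
  have iM : Integrable (fun x => max (L x - s) 0) (stdGaussian E) :=
    (iL.sub (integrable_const s)).pos_part
  have e1 : ‖z‖ = ∫ x in A, L x ∂(stdGaussian E) := by
    rw [L.integral_comp_comm ii.integrableOn, ← hz, hL, innerSL_apply_apply, real_inner_smul_left,
      real_inner_self_eq_norm_sq]
    field_simp
  have e2 : ∫ x, max (x - s) 0 ∂(gaussianReal 0 1) = ∫ x, max (L x - s) 0 ∂(stdGaussian E) := by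
    rw [← mp, integral_map L.continuous.aemeasurable (by fun_prop)]
  rw [e1, e2]
  calc ∫ x in A, L x ∂(stdGaussian E)
      ≤ ∫ x in A, (s + max (L x - s) 0) ∂(stdGaussian E) :=
        integral_mono iL.integrableOn ((integrable_const s).add iM).integrableOn fun x => by
          have := le_max_left (L x - s) 0
          linarith
    _ = s * (stdGaussian E).real A + ∫ x in A, max (L x - s) 0 ∂(stdGaussian E) := by
        rw [integral_add (integrable_const s) iM.integrableOn, setIntegral_const, smul_eq_mul,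
          mul_comm]
    _ ≤ _ := add_le_add le_rfl
        (setIntegral_le_integral iM (ae_of_all _ fun x => le_max_right _ _))

theorem u1 {σ a : ℝ} (h0 : 0 ≤ σ) (ha : 0 ≤ a) (h : ∀ s, 0 < s → σ ≤ s * a + 0.1015 / s) :
    σ ^ 2 ≤ 203 / 500 * a := by
  rcases h0.eq_or_lt with e | e
  · rw [← e]; nlinarith
  have k := mul_le_mul_of_nonneg_left (h (0.203 / σ) (by positivity)) h0
  rw [show σ * (0.203 / σ * a + 0.1015 / (0.203 / σ)) = 0.203 * a + σ ^ 2 / 2 by
    field_simp; ring] at k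
  nlinarith

theorem u2 {σ a : ℝ} (h0 : 0 ≤ σ) (ha : 0 ≤ a) (h1 : a ≤ 1 / 7) (h2 : σ ^ 2 ≤ 203 / 500 * a)
    (h3 : σ ≤ 1.07 * a + 0.07304) (h : ∀ s, 0 < s → σ ≤ s * a + 0.39895 * (8 / (27 * s ^ 2))) :
    σ ^ 2 ≤ 9 / (8 * π) * a := by
  have c1 : (0.358 : ℝ) ≤ 9 / (8 * π) := by
    rw [le_div_iff₀ (by positivity)]; nlinarith [Real.pi_lt_d4]
  refine le_trans ?_ (mul_le_mul_of_nonneg_right c1 ha)
  rcases le_total 0.04 a with k | k
  · have := pow_le_pow_left₀ h0 h3 2
    nlinarith [mul_nonneg (sub_nonneg.2 k) (sub_nonneg.2 h1)]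
  rcases ha.eq_or_lt with e | e
  · rw [← e] at h2 ⊢; linarith
  rcases h0.eq_or_lt with e' | e'
  · rw [← e']; nlinarith
  have k1 := mul_le_mul_of_nonneg_left (h (2 * σ / (3 * a)) (by positivity)) (sq_nonneg σ)
  rw [show σ ^ 2 * (2 * σ / (3 * a) * a + 0.39895 * (8 / (27 * (2 * σ / (3 * a)) ^ 2))) =
    2 / 3 * σ ^ 3 + 0.39895 * (2 / 3) * a ^ 2 by field_simp; ring] at k1
  have k2 : σ ^ 3 ≤ 0.7979 * a ^ 2 := by nlinarith
  have k3 := pow_le_pow_left₀ (by positivity) k2 2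
  refine le_of_pow_le_pow_left₀ three_ne_zero (by positivity) ?_
  nlinarith [mul_le_mul_of_nonneg_left k (pow_pos e 3).le, pow_pos e 3]

theorem result (d k : ℕ) (A : Fin k → Set (EuclideanSpace ℝ (Fin d)))
    (hm : ∀ i, MeasurableSet (A i))
    (hd : Pairwise fun i j => AEDisjoint (stdGaussian (EuclideanSpace ℝ (Fin d))) (A i) (A j)) :
    ∑ i, ‖∫ x in A i, x ∂(stdGaussian (EuclideanSpace ℝ (Fin d)))‖ ^ 2 ≤ 203 / 500 ∧
    ((∀ i, (stdGaussian (EuclideanSpace ℝ (Fin d))).real (A i) ≤ 1 / 7 ∨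
        4 / 9 ≤ (stdGaussian (EuclideanSpace ℝ (Fin d))).real (A i)) ∨
      (∃ i, 13 / 25 ≤ (stdGaussian (EuclideanSpace ℝ (Fin d))).real (A i)) →
      ∑ i, ‖∫ x in A i, x ∂(stdGaussian (EuclideanSpace ℝ (Fin d)))‖ ^ 2 ≤ 9 / (8 * π)) := by
  have t : ∑ i, (stdGaussian (EuclideanSpace ℝ (Fin d))).real (A i) ≤ 1 := by
    have := sum_measure_le_measure_univ (μ := stdGaussian (EuclideanSpace ℝ (Fin d)))
      (s := Finset.univ) (t := A) (fun i _ => (hm i).nullMeasurableSet) fun i _ j _ h => hd h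
    rw [measure_univ] at this
    simp only [Measure.real]
    rw [← ENNReal.toReal_sum fun i _ => measure_ne_top _ _]
    exact ENNReal.toReal_le_of_le_ofReal zero_le_one (by simpa using this)
  have v := fun i => u1 (norm_nonneg _) measureReal_nonneg fun s hs =>
    (cell (A i) s hs.le).trans (add_le_add le_rfl (b3 hs))
  have w : ∫ x, max (x - 1.07) 0 ∂(gaussianReal 0 1) ≤ 0.07304 :=
    (b1' (by norm_num) (by norm_num)).trans (by norm_num)
  have v0 : ∀ i, ‖∫ x in A i, x ∂(stdGaussian (EuclideanSpace ℝ (Fin d)))‖ ^ 2 ≤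
      9 / (8 * π) * (4 / 9) := fun i => by
    have := (cell (A i) 0 le_rfl).trans (add_le_add le_rfl b0)
    rw [zero_mul, zero_add] at this
    refine (pow_le_pow_left₀ (norm_nonneg _) this 2).trans (le_of_eq ?_)
    rw [inv_pow, sq_sqrt (by positivity)]
    field_simp
    norm_num
  refine ⟨?_, ?_⟩
  · refine (Finset.sum_le_sum fun i _ => v i).trans ?_
    rw [← Finset.mul_sum]
    linarith
  rintro (h | ⟨j, h⟩)
  · refine (Finset.sum_le_sum (g := fun i => 9 / (8 * π) *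
      (stdGaussian (EuclideanSpace ℝ (Fin d))).real (A i)) fun i _ => ?_).trans ?_
    · rcases h i with h | h
      · exact u2 (norm_nonneg _) measureReal_nonneg h (v i)
          ((cell (A i) _ (by norm_num)).trans (add_le_add le_rfl w)) fun s hs =>
          (cell (A i) s hs.le).trans (add_le_add le_rfl (b2' hs))
      · exact (v0 i).trans (mul_le_mul_of_nonneg_left h (by positivity))
    · rw [← Finset.mul_sum]
      exact mul_le_of_le_one_right (by positivity) t
  · have c1 : (0.358 : ℝ) ≤ 9 / (8 * π) := by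
      rw [le_div_iff₀ (by positivity)]; nlinarith [Real.pi_lt_d4]
    have k := Finset.sum_le_sum fun i (_ : i ∈ Finset.univ.erase j) => v i
    rw [← Finset.mul_sum] at k
    rw [← Finset.add_sum_erase _ _ (Finset.mem_univ j)] at t ⊢
    linarith [v0 j]

end Vale.Agent.Results.P226.Universal
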